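import Vale.Agent.P363.R.Final

/-! Disproof of Q1 of P363: atoms with five electrons and large nuclear charge have a normalized
ground state whose density is not noninteracting ensemble representable. -/

namespace Vale.Agent.Results.P363.FiveElectronAtom

open Vale.Agent.P363.Stmt

/-- For every sufficiently large nuclear charge `Z` the atom with five electrons has a normalized
ground state whose density is not the density of any ground-state ensemble of noninteracting
electrons with a potential in `L^{3/2} + L^∞`; in particular the assertion of Q1 is false. -/
theorem result :
    (∃ Z₀ : ℕ, ∀ Z : ℕ, Z₀ ≤ Z → ∃ Ψ : ElectronState 5,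
      IsGroundState (coulombPotential (fun _ : Fin 1 => Z) (fun _ => 0)) Ψ ∧
        ¬ NonintEnsembleRepresentable 4 (density Ψ)) ∧
    ¬ ∀ n : ℕ, CoulombDensitiesRepresentable n :=
  Vale.Agent.P363.R.Final.main

end Vale.Agent.Results.P363.FiveElectronAtom
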