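import Vale.Agent.P363.R.Final

/-! The literal negation of Q1 of P363. -/

namespace Vale.Agent.Results.P363.QuestionOneFalse

open Vale.Agent.P363.Stmt

/-- It is false that for every number `n + 1` of electrons and every Coulomb molecule the density
of every normalized ground state is noninteracting ensemble representable. -/
theorem result : ¬ ∀ n : ℕ, CoulombDensitiesRepresentable n :=
  Vale.Agent.P363.R.Final.main.2

end Vale.Agent.Results.P363.QuestionOneFalse
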